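import Mathlib

set_option linter.unusedVariables false

namespace Vale.Agent.H68

/-- part 0 of the polynomial `truncF` -/
noncomputable def truncF0 (t0 t1 t2 : ℝ) : ℝ :=
  (1 : ℝ) + (-16 : ℝ) * t0 * t1 * t2 + (10 : ℝ) * t0 * t1 * t2^2 + (-4 : ℝ) * t0 * t1 * t2^3
    + (10 : ℝ) * t0 * t1^2 * t2 + (-2 : ℝ) * t0 * t1^2 * t2^2 + (-4 : ℝ) * t0 * t1^3 * t2
    + (10 : ℝ) * t0^2 * t1 * t2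

/-- part 1 of the polynomial `truncF` -/
noncomputable def truncF1 (t0 t1 t2 : ℝ) : ℝ :=
  (-2 : ℝ) * t0^2 * t1 * t2^2 + (-2 : ℝ) * t0^2 * t1^2 * t2 + (9 : ℝ) * t0^2 * t1^2 * t2^4
    + (2 : ℝ) * t0^2 * t1^3 * t2^3 + (-10 : ℝ) * t0^2 * t1^3 * t2^4
    + (9 : ℝ) * t0^2 * t1^4 * t2^2 + (-10 : ℝ) * t0^2 * t1^4 * t2^3
    + (9 : ℝ) * t0^2 * t1^4 * t2^4

/-- part 2 of the polynomial `truncF` -/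
noncomputable def truncF2 (t0 t1 t2 : ℝ) : ℝ :=
  (-4 : ℝ) * t0^3 * t1 * t2 + (2 : ℝ) * t0^3 * t1^2 * t2^3 + (-10 : ℝ) * t0^3 * t1^2 * t2^4
    + (2 : ℝ) * t0^3 * t1^3 * t2^2 + (2 : ℝ) * t0^3 * t1^3 * t2^4
    + (-10 : ℝ) * t0^3 * t1^4 * t2^2 + (2 : ℝ) * t0^3 * t1^4 * t2^3
    + (-4 : ℝ) * t0^3 * t1^5 * t2^5

/-- part 3 of the polynomial `truncF` -/
noncomputable def truncF3 (t0 t1 t2 : ℝ) : ℝ :=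
  (9 : ℝ) * t0^4 * t1^2 * t2^2 + (-10 : ℝ) * t0^4 * t1^2 * t2^3 + (9 : ℝ) * t0^4 * t1^2 * t2^4
    + (-10 : ℝ) * t0^4 * t1^3 * t2^2 + (2 : ℝ) * t0^4 * t1^3 * t2^3
    + (9 : ℝ) * t0^4 * t1^4 * t2^2 + (-2 : ℝ) * t0^4 * t1^4 * t2^5
    + (-2 : ℝ) * t0^4 * t1^5 * t2^4

/-- part 4 of the polynomial `truncF` -/
noncomputable def truncF4 (t0 t1 t2 : ℝ) : ℝ :=
  (10 : ℝ) * t0^4 * t1^5 * t2^5 + (-4 : ℝ) * t0^5 * t1^3 * t2^5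
    + (-2 : ℝ) * t0^5 * t1^4 * t2^4 + (10 : ℝ) * t0^5 * t1^4 * t2^5
    + (-4 : ℝ) * t0^5 * t1^5 * t2^3 + (10 : ℝ) * t0^5 * t1^5 * t2^4
    + (-16 : ℝ) * t0^5 * t1^5 * t2^5 + (1 : ℝ) * t0^6 * t1^6 * t2^6

/-- The polynomial `F(t)` with `det (G - p T G Tᵀ) = 5 F(t)` for the truncated tetrahedron. -/
noncomputable def truncF (t0 t1 t2 : ℝ) : ℝ :=
  truncF0 t0 t1 t2 + truncF1 t0 t1 t2 + truncF2 t0 t1 t2 + truncF3 t0 t1 t2 + truncF4 t0 t1 t2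

/-- part 0 of the certificate polynomial `truncQ` -/
noncomputable def truncQ0 (t0 t1 t2 s0 s1 s2 : ℝ) : ℝ :=
  (10 : ℝ) * s0^4 * s1^4 * s2^4 + (30 : ℝ) * s0^4 * s1^4 * t2 * s2^3
    + (34 : ℝ) * s0^4 * s1^4 * t2^2 * s2^2 + (18 : ℝ) * s0^4 * s1^4 * t2^3 * s2
    + (4 : ℝ) * s0^4 * s1^4 * t2^4 + (30 : ℝ) * s0^4 * t1 * s1^3 * s2^4
    + (82 : ℝ) * s0^4 * t1 * s1^3 * t2 * s2^3 + (82 : ℝ) * s0^4 * t1 * s1^3 * t2^2 * s2^2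

lemma truncQ0_pos (t0 t1 t2 s0 s1 s2 : ℝ) (h0 : 0 < t0) (h1 : 0 < t1) (h2 : 0 < t2)
    (k0 : 0 < s0) (k1 : 0 < s1) (k2 : 0 < s2) : 0 < truncQ0 t0 t1 t2 s0 s1 s2 := by
  unfold truncQ0
  positivity

/-- part 1 of the certificate polynomial `truncQ` -/
noncomputable def truncQ1 (t0 t1 t2 s0 s1 s2 : ℝ) : ℝ :=
  (38 : ℝ) * s0^4 * t1 * s1^3 * t2^3 * s2 + (8 : ℝ) * s0^4 * t1 * s1^3 * t2^4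
    + (34 : ℝ) * s0^4 * t1^2 * s1^2 * s2^4 + (82 : ℝ) * s0^4 * t1^2 * s1^2 * t2 * s2^3
    + (66 : ℝ) * s0^4 * t1^2 * s1^2 * t2^2 * s2^2 + (22 : ℝ) * s0^4 * t1^2 * s1^2 * t2^3 * s2
    + (4 : ℝ) * s0^4 * t1^2 * s1^2 * t2^4 + (18 : ℝ) * s0^4 * t1^3 * s1 * s2^4

lemma truncQ1_pos (t0 t1 t2 s0 s1 s2 : ℝ) (h0 : 0 < t0) (h1 : 0 < t1) (h2 : 0 < t2)
    (k0 : 0 < s0) (k1 : 0 < s1) (k2 : 0 < s2) : 0 < truncQ1 t0 t1 t2 s0 s1 s2 := by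
  unfold truncQ1
  positivity

/-- part 2 of the certificate polynomial `truncQ` -/
noncomputable def truncQ2 (t0 t1 t2 s0 s1 s2 : ℝ) : ℝ :=
  (38 : ℝ) * s0^4 * t1^3 * s1 * t2 * s2^3 + (22 : ℝ) * s0^4 * t1^3 * s1 * t2^2 * s2^2
    + (2 : ℝ) * s0^4 * t1^3 * s1 * t2^3 * s2 + (4 : ℝ) * s0^4 * t1^4 * s2^4
    + (8 : ℝ) * s0^4 * t1^4 * t2 * s2^3 + (4 : ℝ) * s0^4 * t1^4 * t2^2 * s2^2
    + (30 : ℝ) * t0 * s0^3 * s1^4 * s2^4 + (82 : ℝ) * t0 * s0^3 * s1^4 * t2 * s2^3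

lemma truncQ2_pos (t0 t1 t2 s0 s1 s2 : ℝ) (h0 : 0 < t0) (h1 : 0 < t1) (h2 : 0 < t2)
    (k0 : 0 < s0) (k1 : 0 < s1) (k2 : 0 < s2) : 0 < truncQ2 t0 t1 t2 s0 s1 s2 := by
  unfold truncQ2
  positivity

/-- part 3 of the certificate polynomial `truncQ` -/
noncomputable def truncQ3 (t0 t1 t2 s0 s1 s2 : ℝ) : ℝ :=
  (82 : ℝ) * t0 * s0^3 * s1^4 * t2^2 * s2^2 + (38 : ℝ) * t0 * s0^3 * s1^4 * t2^3 * s2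
    + (8 : ℝ) * t0 * s0^3 * s1^4 * t2^4 + (82 : ℝ) * t0 * s0^3 * t1 * s1^3 * s2^4
    + (199 : ℝ) * t0 * s0^3 * t1 * s1^3 * t2 * s2^3
    + (169 : ℝ) * t0 * s0^3 * t1 * s1^3 * t2^2 * s2^2
    + (60 : ℝ) * t0 * s0^3 * t1 * s1^3 * t2^3 * s2 + (8 : ℝ) * t0 * s0^3 * t1 * s1^3 * t2^4

lemma truncQ3_pos (t0 t1 t2 s0 s1 s2 : ℝ) (h0 : 0 < t0) (h1 : 0 < t1) (h2 : 0 < t2)
    (k0 : 0 < s0) (k1 : 0 < s1) (k2 : 0 < s2) : 0 < truncQ3 t0 t1 t2 s0 s1 s2 := by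
  unfold truncQ3
  positivity

/-- part 4 of the certificate polynomial `truncQ` -/
noncomputable def truncQ4 (t0 t1 t2 s0 s1 s2 : ℝ) : ℝ :=
  (82 : ℝ) * t0 * s0^3 * t1^2 * s1^2 * s2^4 + (169 : ℝ) * t0 * s0^3 * t1^2 * s1^2 * t2 * s2^3
    + (109 : ℝ) * t0 * s0^3 * t1^2 * s1^2 * t2^2 * s2^2
    + (22 : ℝ) * t0 * s0^3 * t1^2 * s1^2 * t2^3 * s2 + (38 : ℝ) * t0 * s0^3 * t1^3 * s1 * s2^4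
    + (60 : ℝ) * t0 * s0^3 * t1^3 * s1 * t2 * s2^3
    + (22 : ℝ) * t0 * s0^3 * t1^3 * s1 * t2^2 * s2^2 + (8 : ℝ) * t0 * s0^3 * t1^4 * s2^4

lemma truncQ4_pos (t0 t1 t2 s0 s1 s2 : ℝ) (h0 : 0 < t0) (h1 : 0 < t1) (h2 : 0 < t2)
    (k0 : 0 < s0) (k1 : 0 < s1) (k2 : 0 < s2) : 0 < truncQ4 t0 t1 t2 s0 s1 s2 := by
  unfold truncQ4
  positivity

/-- part 5 of the certificate polynomial `truncQ` -/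
noncomputable def truncQ5 (t0 t1 t2 s0 s1 s2 : ℝ) : ℝ :=
  (8 : ℝ) * t0 * s0^3 * t1^4 * t2 * s2^3 + (34 : ℝ) * t0^2 * s0^2 * s1^4 * s2^4
    + (82 : ℝ) * t0^2 * s0^2 * s1^4 * t2 * s2^3 + (66 : ℝ) * t0^2 * s0^2 * s1^4 * t2^2 * s2^2
    + (22 : ℝ) * t0^2 * s0^2 * s1^4 * t2^3 * s2 + (4 : ℝ) * t0^2 * s0^2 * s1^4 * t2^4
    + (82 : ℝ) * t0^2 * s0^2 * t1 * s1^3 * s2^4
    + (169 : ℝ) * t0^2 * s0^2 * t1 * s1^3 * t2 * s2^3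

lemma truncQ5_pos (t0 t1 t2 s0 s1 s2 : ℝ) (h0 : 0 < t0) (h1 : 0 < t1) (h2 : 0 < t2)
    (k0 : 0 < s0) (k1 : 0 < s1) (k2 : 0 < s2) : 0 < truncQ5 t0 t1 t2 s0 s1 s2 := by
  unfold truncQ5
  positivity

/-- part 6 of the certificate polynomial `truncQ` -/
noncomputable def truncQ6 (t0 t1 t2 s0 s1 s2 : ℝ) : ℝ :=
  (109 : ℝ) * t0^2 * s0^2 * t1 * s1^3 * t2^2 * s2^2
    + (22 : ℝ) * t0^2 * s0^2 * t1 * s1^3 * t2^3 * s2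
    + (66 : ℝ) * t0^2 * s0^2 * t1^2 * s1^2 * s2^4
    + (109 : ℝ) * t0^2 * s0^2 * t1^2 * s1^2 * t2 * s2^3
    + (43 : ℝ) * t0^2 * s0^2 * t1^2 * s1^2 * t2^2 * s2^2
    + (22 : ℝ) * t0^2 * s0^2 * t1^3 * s1 * s2^4 + (22 : ℝ) * t0^2 * s0^2 * t1^3 * s1 * t2 * s2^3
    + (4 : ℝ) * t0^2 * s0^2 * t1^4 * s2^4

lemma truncQ6_pos (t0 t1 t2 s0 s1 s2 : ℝ) (h0 : 0 < t0) (h1 : 0 < t1) (h2 : 0 < t2)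
    (k0 : 0 < s0) (k1 : 0 < s1) (k2 : 0 < s2) : 0 < truncQ6 t0 t1 t2 s0 s1 s2 := by
  unfold truncQ6
  positivity

/-- part 7 of the certificate polynomial `truncQ` -/
noncomputable def truncQ7 (t0 t1 t2 s0 s1 s2 : ℝ) : ℝ :=
  (18 : ℝ) * t0^3 * s0 * s1^4 * s2^4 + (38 : ℝ) * t0^3 * s0 * s1^4 * t2 * s2^3
    + (22 : ℝ) * t0^3 * s0 * s1^4 * t2^2 * s2^2 + (2 : ℝ) * t0^3 * s0 * s1^4 * t2^3 * s2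
    + (38 : ℝ) * t0^3 * s0 * t1 * s1^3 * s2^4 + (60 : ℝ) * t0^3 * s0 * t1 * s1^3 * t2 * s2^3
    + (22 : ℝ) * t0^3 * s0 * t1 * s1^3 * t2^2 * s2^2 + (22 : ℝ) * t0^3 * s0 * t1^2 * s1^2 * s2^4

lemma truncQ7_pos (t0 t1 t2 s0 s1 s2 : ℝ) (h0 : 0 < t0) (h1 : 0 < t1) (h2 : 0 < t2)
    (k0 : 0 < s0) (k1 : 0 < s1) (k2 : 0 < s2) : 0 < truncQ7 t0 t1 t2 s0 s1 s2 := by
  unfold truncQ7
  positivity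

/-- part 8 of the certificate polynomial `truncQ` -/
noncomputable def truncQ8 (t0 t1 t2 s0 s1 s2 : ℝ) : ℝ :=
  (22 : ℝ) * t0^3 * s0 * t1^2 * s1^2 * t2 * s2^3 + (2 : ℝ) * t0^3 * s0 * t1^3 * s1 * s2^4
    + (4 : ℝ) * t0^4 * s1^4 * s2^4 + (8 : ℝ) * t0^4 * s1^4 * t2 * s2^3
    + (4 : ℝ) * t0^4 * s1^4 * t2^2 * s2^2 + (8 : ℝ) * t0^4 * t1 * s1^3 * s2^4
    + (8 : ℝ) * t0^4 * t1 * s1^3 * t2 * s2^3 + (4 : ℝ) * t0^4 * t1^2 * s1^2 * s2^4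

lemma truncQ8_pos (t0 t1 t2 s0 s1 s2 : ℝ) (h0 : 0 < t0) (h1 : 0 < t1) (h2 : 0 < t2)
    (k0 : 0 < s0) (k1 : 0 < s1) (k2 : 0 < s2) : 0 < truncQ8 t0 t1 t2 s0 s1 s2 := by
  unfold truncQ8
  positivity

/-- Bernstein-type certificate polynomial: `(1 - p)^6 - F = p * Q`. -/
noncomputable def truncQ (t0 t1 t2 s0 s1 s2 : ℝ) : ℝ :=
  truncQ0 t0 t1 t2 s0 s1 s2
    + truncQ1 t0 t1 t2 s0 s1 s2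
    + truncQ2 t0 t1 t2 s0 s1 s2
    + truncQ3 t0 t1 t2 s0 s1 s2
    + truncQ4 t0 t1 t2 s0 s1 s2
    + truncQ5 t0 t1 t2 s0 s1 s2
    + truncQ6 t0 t1 t2 s0 s1 s2
    + truncQ7 t0 t1 t2 s0 s1 s2
    + truncQ8 t0 t1 t2 s0 s1 s2

set_option maxHeartbeats 1600000 in
lemma truncF_cert (t0 t1 t2 : ℝ) :
    (1 - t0 * t1 * t2) ^ 6 - truncF t0 t1 t2
      = t0 * t1 * t2 * truncQ t0 t1 t2 (1 - t0) (1 - t1) (1 - t2) := by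
  unfold truncF truncQ truncF0 truncF1 truncF2 truncF3 truncF4 truncQ0 truncQ1 truncQ2 truncQ3 truncQ4 truncQ5 truncQ6 truncQ7 truncQ8
  ring

lemma truncQ_pos (t0 t1 t2 s0 s1 s2 : ℝ) (h0 : 0 < t0) (h1 : 0 < t1) (h2 : 0 < t2)
    (k0 : 0 < s0) (k1 : 0 < s1) (k2 : 0 < s2) : 0 < truncQ t0 t1 t2 s0 s1 s2 := by
  unfold truncQ
  linarith [truncQ0_pos t0 t1 t2 s0 s1 s2 h0 h1 h2 k0 k1 k2, truncQ1_pos t0 t1 t2 s0 s1 s2 h0 h1 h2 k0 k1 k2, truncQ2_pos t0 t1 t2 s0 s1 s2 h0 h1 h2 k0 k1 k2, truncQ3_pos t0 t1 t2 s0 s1 s2 h0 h1 h2 k0 k1 k2, truncQ4_pos t0 t1 t2 s0 s1 s2 h0 h1 h2 k0 k1 k2, truncQ5_pos t0 t1 t2 s0 s1 s2 h0 h1 h2 k0 k1 k2, truncQ6_pos t0 t1 t2 s0 s1 s2 h0 h1 h2 k0 k1 k2, truncQ7_pos t0 t1 t2 s0 s1 s2 h0 h1 h2 k0 k1 k2, truncQ8_pos t0 t1 t2 s0 s1 s2 h0 h1 h2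 k0 k1 k2]

lemma truncF_lt (t0 t1 t2 : ℝ) (h0 : 0 < t0) (h1 : 0 < t1) (h2 : 0 < t2)
    (k0 : t0 < 1) (k1 : t1 < 1) (k2 : t2 < 1) :
    truncF t0 t1 t2 < (1 - t0 * t1 * t2) ^ 6 := by
  have hQ := truncQ_pos t0 t1 t2 (1 - t0) (1 - t1) (1 - t2) h0 h1 h2
    (by linarith) (by linarith) (by linarith)
  have hc := truncF_cert t0 t1 t2
  have hp : 0 < t0 * t1 * t2 := by positivity
  have := mul_pos hp hQ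
  linarith

end Vale.Agent.H68
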