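import Mathlib
import Vale.Agent.H68.IsoRatio
import Vale.Agent.H68.TruncCert

namespace Vale.Agent.H68

open Matrix

/-- the column-stochastic matrix expressing the vertices of the cut-off corner simplex
in terms of the vertices of the big simplex -/
def truncT (t : Fin 3 → ℝ) : Matrix (Fin 4) (Fin 4) ℝ :=
  !![1, 1 - t 0, 1 - t 1, 1 - t 2;
     0, t 0, 0, 0;
     0, 0, t 1, 0;
     0, 0, 0, t 2]

/-- the explicit form of `G - p T G Tᵀ` -/
def truncN (t : Fin 3 → ℝ) : Matrix (Fin 4) (Fin 4) ℝ :=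
  !![2 - t 0 * t 1 * t 2 * (1 + ((1 - t 0) ^ 2 + (1 - t 1) ^ 2 + (1 - t 2) ^ 2)
        + (4 - t 0 - t 1 - t 2) ^ 2),
      1 - t 0 * t 1 * t 2 * (t 0 * (5 - 2 * t 0 - t 1 - t 2)),
      1 - t 0 * t 1 * t 2 * (t 1 * (5 - t 0 - 2 * t 1 - t 2)),
      1 - t 0 * t 1 * t 2 * (t 2 * (5 - t 0 - t 1 - 2 * t 2));
     1 - t 0 * t 1 * t 2 * (t 0 * (5 - 2 * t 0 - t 1 - t 2)),
      2 - t 0 * t 1 * t 2 * (2 * t 0 ^ 2),
      1 - t 0 * t 1 * t 2 * (t 0 * t 1),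
      1 - t 0 * t 1 * t 2 * (t 0 * t 2);
     1 - t 0 * t 1 * t 2 * (t 1 * (5 - t 0 - 2 * t 1 - t 2)),
      1 - t 0 * t 1 * t 2 * (t 0 * t 1),
      2 - t 0 * t 1 * t 2 * (2 * t 1 ^ 2),
      1 - t 0 * t 1 * t 2 * (t 1 * t 2);
     1 - t 0 * t 1 * t 2 * (t 2 * (5 - t 0 - t 1 - 2 * t 2)),
      1 - t 0 * t 1 * t 2 * (t 0 * t 2),
      1 - t 0 * t 1 * t 2 * (t 1 * t 2),
      2 - t 0 * t 1 * t 2 * (2 * t 2 ^ 2)]

lemma truncN_eq (t : Fin 3 → ℝ) :
    (1 + colOne 4 * rowOne 4 : Matrix (Fin 4) (Fin 4) ℝ)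
      - (t 0 * t 1 * t 2) • (truncT t * (1 + colOne 4 * rowOne 4) * (truncT t).transpose)
      = truncN t := by
  ext i j
  simp only [Matrix.sub_apply, Matrix.smul_apply, Matrix.mul_apply, Matrix.add_apply,
    Matrix.transpose_apply, Fin.sum_univ_four, Fin.sum_univ_one, colOne, rowOne, Matrix.of_apply,
    smul_eq_mul]
  fin_cases i <;> fin_cases j <;>
    simp [truncT, truncN, -mul_eq_mul_left_iff, -mul_eq_mul_right_iff, -sub_right_inj,
      -sub_left_inj] <;> ring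

lemma det_truncT (t : Fin 3 → ℝ) : (truncT t).det = t 0 * t 1 * t 2 := by
  simp [truncT, Matrix.det_succ_row_zero, Fin.sum_univ_succ]
  ring

set_option maxHeartbeats 1600000 in
lemma det_truncN (t : Fin 3 → ℝ) : (truncN t).det = 5 * truncF (t 0) (t 1) (t 2) := by
  rw [Matrix.det_succ_row_zero]
  simp only [Fin.sum_univ_succ, Fin.sum_univ_zero, Matrix.det_fin_three]
  simp [truncN, Fin.succAbove]
  unfold truncF truncF0 truncF1 truncF2 truncF3 truncF4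
  ring

end Vale.Agent.H68
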