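import Mathlib
import Vale.Agent.H68.Moment
import Vale.Agent.H68.TruncDet

open MeasureTheory Set

namespace Vale.Agent.H68

lemma forall_fin4 {P : Fin 4 → Prop} : (∀ k, P k) ↔ P 0 ∧ P 1 ∧ P 2 ∧ P 3 := by
  constructor
  · intro h; exact ⟨h 0, h 1, h 2, h 3⟩
  · rintro ⟨h0, h1, h2, h3⟩ k
    fin_cases k <;> assumption

lemma forall_fin6 {P : Fin 6 → Prop} :
    (∀ k, P k) ↔ P 0 ∧ P 1 ∧ P 2 ∧ P 3 ∧ P 4 ∧ P 5 := by
  constructor
  · intro h; exact ⟨h 0, h 1, h 2, h 3, h 4, h 5⟩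
  · rintro ⟨h0, h1, h2, h3, h4, h5⟩ k
    fin_cases k <;> assumption

lemma vec4_ext {a b : Fin 4 → ℝ} (h0 : a 0 = b 0) (h1 : a 1 = b 1) (h2 : a 2 = b 2)
    (h3 : a 3 = b 3) : a = b := by
  funext k
  fin_cases k <;> assumption

/-- vertices of the corner simplex cut off from the tetrahedron `v` at the vertex `v 0` -/
def cornerPts (v : Fin 4 → Fin 3 → ℝ) (t : Fin 3 → ℝ) : Fin 4 → Fin 3 → ℝ :=
  ![v 0, v 0 + t 0 • (v 1 - v 0), v 0 + t 1 • (v 2 - v 0), v 0 + t 2 • (v 3 - v 0)]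

/-- vertices of the truncated tetrahedron -/
def truncPts (v : Fin 4 → Fin 3 → ℝ) (t : Fin 3 → ℝ) : Fin 6 → Fin 3 → ℝ :=
  ![v 1, v 2, v 3, v 0 + t 0 • (v 1 - v 0), v 0 + t 1 • (v 2 - v 0), v 0 + t 2 • (v 3 - v 0)]

/-- coefficient matrix of the vertices of the truncated tetrahedron -/
def truncB (t : Fin 3 → ℝ) : Matrix (Fin 4) (Fin 6) ℝ :=
  !![0, 0, 0, 1 - t 0, 1 - t 1, 1 - t 2;
     1, 0, 0, t 0, 0, 0;
     0, 1, 0, 0, t 1, 0;
     0, 0, 1, 0, 0, t 2]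

/-- barycentric coordinates with respect to the tetrahedron `v` -/
noncomputable def bary (v : Fin 4 → Fin 3 → ℝ) (x : Fin 3 → ℝ) : Fin 4 → ℝ :=
  (liftMat v)⁻¹.mulVec (lift x)

lemma liftMat_cornerPts (v : Fin 4 → Fin 3 → ℝ) (t : Fin 3 → ℝ) :
    liftMat (cornerPts v t) = liftMat v * truncT t := by
  ext a k
  simp only [Matrix.mul_apply, Fin.sum_univ_four]
  fin_cases k <;> refine Fin.cases ?_ (fun j => ?_) a <;>
    simp [liftMat, lift, cornerPts, truncT] <;> ring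

lemma liftMat_truncPts (v : Fin 4 → Fin 3 → ℝ) (t : Fin 3 → ℝ) :
    liftMat (truncPts v t) = liftMat v * truncB t := by
  ext a k
  simp only [Matrix.mul_apply, Fin.sum_univ_four]
  fin_cases k <;> refine Fin.cases ?_ (fun j => ?_) a <;>
    simp [liftMat, lift, truncPts, truncB] <;> ring

lemma liftMat_mulVec_bary (v : Fin 4 → Fin 3 → ℝ) (hW : (liftMat v).det ≠ 0) (x : Fin 3 → ℝ) :
    (liftMat v).mulVec (bary v x) = lift x := by
  have hu : IsUnit (liftMat v).det := isUnit_iff_ne_zero.mpr hW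
  unfold bary
  rw [Matrix.mulVec_mulVec, Matrix.mul_nonsing_inv _ hu, Matrix.one_mulVec]

lemma eq_bary (v : Fin 4 → Fin 3 → ℝ) (hW : (liftMat v).det ≠ 0) (x : Fin 3 → ℝ)
    (z : Fin 4 → ℝ) : (liftMat v).mulVec z = lift x ↔ z = bary v x := by
  have hu : IsUnit (liftMat v).det := isUnit_iff_ne_zero.mpr hW
  constructor
  · intro h
    unfold bary
    rw [← h, Matrix.mulVec_mulVec, Matrix.nonsing_inv_mul _ hu, Matrix.one_mulVec]
  · rintro rfl
    exact liftMat_mulVec_bary v hW x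

lemma bary_sum (v : Fin 4 → Fin 3 → ℝ) (hW : (liftMat v).det ≠ 0) (x : Fin 3 → ℝ) :
    bary v x 0 + bary v x 1 + bary v x 2 + bary v x 3 = 1 := by
  have h := congrFun (liftMat_mulVec_bary v hW x) 0
  rw [liftMat_mulVec_zero, lift_zero, Fin.sum_univ_four] at h
  exact h

/-- membership in a convex hull of points whose lifts are combinations of the lifted `v k` -/
lemma mem_hull_iff_bary {m : ℕ} (v : Fin 4 → Fin 3 → ℝ) (hW : (liftMat v).det ≠ 0)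
    (w : Fin m → Fin 3 → ℝ) (M : Matrix (Fin 4) (Fin m) ℝ) (hM : liftMat w = liftMat v * M)
    (x : Fin 3 → ℝ) :
    x ∈ convexHull ℝ (Set.range w) ↔ ∃ u : Fin m → ℝ, (∀ k, 0 ≤ u k) ∧ M.mulVec u = bary v x := by
  rw [mem_convexHull_range_iff_lift]
  constructor
  · rintro ⟨u, hu0, hu⟩
    refine ⟨u, hu0, ?_⟩
    rw [← eq_bary v hW x, Matrix.mulVec_mulVec, ← hM]
    exact hu
  · rintro ⟨u, hu0, hu⟩
    refine ⟨u, hu0, ?_⟩
    rw [hM, ← Matrix.mulVec_mulVec, hu]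
    exact liftMat_mulVec_bary v hW x

lemma mem_simplex_iff_bary (v : Fin 4 → Fin 3 → ℝ) (hW : (liftMat v).det ≠ 0) (x : Fin 3 → ℝ) :
    x ∈ convexHull ℝ (Set.range v) ↔ ∀ k, 0 ≤ bary v x k :=
  mem_convexHull_range_iff_inv v hW x

lemma truncT_mulVec (t : Fin 3 → ℝ) (s : Fin 4 → ℝ) :
    (truncT t).mulVec s
      = ![s 0 + (1 - t 0) * s 1 + (1 - t 1) * s 2 + (1 - t 2) * s 3, t 0 * s 1, t 1 * s 2,
          t 2 * s 3] := by
  funext i
  fin_cases i <;> simp [truncT, Matrix.mulVec, dotProduct, Fin.sum_univ_four]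

lemma truncB_mulVec (t : Fin 3 → ℝ) (u : Fin 6 → ℝ) :
    (truncB t).mulVec u
      = ![(1 - t 0) * u 3 + (1 - t 1) * u 4 + (1 - t 2) * u 5, u 0 + t 0 * u 3, u 1 + t 1 * u 4,
          u 2 + t 2 * u 5] := by
  funext i
  fin_cases i <;> simp [truncB, Matrix.mulVec, dotProduct, Fin.sum_univ_six]

/-- algebraic core: nonnegative solutions of `T s = c` -/
lemma exists_truncT (t : Fin 3 → ℝ) (ht : ∀ i, 0 < t i ∧ t i ≤ 1) (c : Fin 4 → ℝ)
    (hsum : c 0 + c 1 + c 2 + c 3 = 1) :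
    (∃ s : Fin 4 → ℝ, (∀ k, 0 ≤ s k) ∧ (truncT t).mulVec s = c) ↔
      (∀ k, 0 ≤ c k) ∧ c 1 / t 0 + c 2 / t 1 + c 3 / t 2 ≤ 1 := by
  obtain ⟨h0, h0'⟩ := ht 0
  obtain ⟨h1, h1'⟩ := ht 1
  obtain ⟨h2, h2'⟩ := ht 2
  constructor
  · rintro ⟨s, hs0, hs⟩
    rw [truncT_mulVec] at hs
    have e0 : s 0 + (1 - t 0) * s 1 + (1 - t 1) * s 2 + (1 - t 2) * s 3 = c 0 := congrFun hs 0
    have e1 : t 0 * s 1 = c 1 := congrFun hs 1
    have e2 : t 1 * s 2 = c 2 := congrFun hs 2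
    have e3 : t 2 * s 3 = c 3 := congrFun hs 3
    have p0 := hs0 0
    have p1 := hs0 1
    have p2 := hs0 2
    have p3 := hs0 3
    have d1 : c 1 / t 0 = s 1 := by rw [← e1]; field_simp
    have d2 : c 2 / t 1 = s 2 := by rw [← e2]; field_simp
    have d3 : c 3 / t 2 = s 3 := by rw [← e3]; field_simp
    have hs1 : s 0 + s 1 + s 2 + s 3 = 1 := by linarith
    refine ⟨?_, ?_⟩
    · rw [forall_fin4]
      refine ⟨?_, ?_, ?_, ?_⟩
      · rw [← e0]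
        have := mul_nonneg (sub_nonneg.mpr h0') p1
        have := mul_nonneg (sub_nonneg.mpr h1') p2
        have := mul_nonneg (sub_nonneg.mpr h2') p3
        linarith
      · rw [← e1]; positivity
      · rw [← e2]; positivity
      · rw [← e3]; positivity
    · rw [d1, d2, d3]
      linarith
  · rintro ⟨hc, hr⟩
    have q1 := hc 1
    have q2 := hc 2
    have q3 := hc 3
    have n0 : 0 ≤ 1 - (c 1 / t 0 + c 2 / t 1 + c 3 / t 2) := by linarith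
    have n1 : 0 ≤ c 1 / t 0 := by positivity
    have n2 : 0 ≤ c 2 / t 1 := by positivity
    have n3 : 0 ≤ c 3 / t 2 := by positivity
    have hc0 : c 0 = 1 - c 1 - c 2 - c 3 := by linarith
    have a0 : 1 - (c 1 / t 0 + c 2 / t 1 + c 3 / t 2) + (1 - t 0) * (c 1 / t 0)
        + (1 - t 1) * (c 2 / t 1) + (1 - t 2) * (c 3 / t 2) = c 0 := by
      rw [hc0]
      field_simp
      ring
    have a1 : t 0 * (c 1 / t 0) = c 1 := by field_simp
    have a2 : t 1 * (c 2 / t 1) = c 2 := by field_simp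
    have a3 : t 2 * (c 3 / t 2) = c 3 := by field_simp
    refine ⟨![1 - (c 1 / t 0 + c 2 / t 1 + c 3 / t 2), c 1 / t 0, c 2 / t 1, c 3 / t 2], ?_, ?_⟩
    · rw [forall_fin4]
      exact ⟨n0, n1, n2, n3⟩
    · rw [truncT_mulVec]
      exact vec4_ext a0 a1 a2 a3

/-- algebraic core: nonnegative solutions of `B u = c` -/
lemma exists_truncB (t : Fin 3 → ℝ) (ht : ∀ i, 0 < t i ∧ t i ≤ 1) (c : Fin 4 → ℝ)
    (hsum : c 0 + c 1 + c 2 + c 3 = 1) :
    (∃ u : Fin 6 → ℝ, (∀ k, 0 ≤ u k) ∧ (truncB t).mulVec u = c) ↔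
      (∀ k, 0 ≤ c k) ∧ 1 ≤ c 1 / t 0 + c 2 / t 1 + c 3 / t 2 := by
  obtain ⟨h0, h0'⟩ := ht 0
  obtain ⟨h1, h1'⟩ := ht 1
  obtain ⟨h2, h2'⟩ := ht 2
  constructor
  · rintro ⟨u, hu0, hu⟩
    rw [truncB_mulVec] at hu
    have e0 : (1 - t 0) * u 3 + (1 - t 1) * u 4 + (1 - t 2) * u 5 = c 0 := congrFun hu 0
    have e1 : u 0 + t 0 * u 3 = c 1 := congrFun hu 1
    have e2 : u 1 + t 1 * u 4 = c 2 := congrFun hu 2
    have e3 : u 2 + t 2 * u 5 = c 3 := congrFun hu 3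
    have p0 := hu0 0
    have p1 := hu0 1
    have p2 := hu0 2
    have p3 := hu0 3
    have p4 := hu0 4
    have p5 := hu0 5
    have hu1 : u 0 + u 1 + u 2 + u 3 + u 4 + u 5 = 1 := by linarith
    have d1 : c 1 / t 0 = u 0 / t 0 + u 3 := by rw [← e1]; field_simp
    have d2 : c 2 / t 1 = u 1 / t 1 + u 4 := by rw [← e2]; field_simp
    have d3 : c 3 / t 2 = u 2 / t 2 + u 5 := by rw [← e3]; field_simp
    have g0 : u 0 ≤ u 0 / t 0 := by
      rw [le_div_iff₀ h0]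
      nlinarith
    have g1 : u 1 ≤ u 1 / t 1 := by
      rw [le_div_iff₀ h1]
      nlinarith
    have g2 : u 2 ≤ u 2 / t 2 := by
      rw [le_div_iff₀ h2]
      nlinarith
    refine ⟨?_, ?_⟩
    · rw [forall_fin4]
      refine ⟨?_, ?_, ?_, ?_⟩
      · rw [← e0]
        have := mul_nonneg (sub_nonneg.mpr h0') p3
        have := mul_nonneg (sub_nonneg.mpr h1') p4
        have := mul_nonneg (sub_nonneg.mpr h2') p5
        linarith
      · rw [← e1]; positivity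
      · rw [← e2]; positivity
      · rw [← e3]; positivity
    · rw [d1, d2, d3]
      linarith
  · rintro ⟨hc, hr⟩
    have q0 := hc 0
    have q1 := hc 1
    have q2 := hc 2
    have q3 := hc 3
    have hc0 : c 0 = 1 - c 1 - c 2 - c 3 := by linarith
    -- `δ = r - 1 + c 0`
    obtain ⟨δ, hδ⟩ : ∃ δ : ℝ, δ = c 1 / t 0 + c 2 / t 1 + c 3 / t 2 - 1 + c 0 := ⟨_, rfl⟩
    have hδc : c 0 ≤ δ := by rw [hδ]; linarith
    have hδ0 : 0 ≤ δ := le_trans q0 hδc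
    obtain ⟨θ, hθ⟩ : ∃ θ : ℝ, θ = c 0 / δ := ⟨_, rfl⟩
    have hθ0 : 0 ≤ θ := by rw [hθ]; exact div_nonneg q0 hδ0
    have hθ1 : θ ≤ 1 := by rw [hθ]; exact div_le_one_of_le₀ hδc hδ0
    have hθδ : θ * δ = c 0 := by
      rcases eq_or_lt_of_le hδ0 with h | h
      · have h' : c 0 = 0 := le_antisymm (by rw [← h] at hδc; exact hδc) q0
        rw [← h, h']
        simp
      · rw [hθ]
        field_simp
    have hθ' : 0 ≤ 1 - θ := sub_nonneg.mpr hθ1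
    have n0 : 0 ≤ (1 - θ) * c 1 := by positivity
    have n1 : 0 ≤ (1 - θ) * c 2 := by positivity
    have n2 : 0 ≤ (1 - θ) * c 3 := by positivity
    have n3 : 0 ≤ θ * (c 1 / t 0) := by positivity
    have n4 : 0 ≤ θ * (c 2 / t 1) := by positivity
    have n5 : 0 ≤ θ * (c 3 / t 2) := by positivity
    have a0 : (1 - t 0) * (θ * (c 1 / t 0)) + (1 - t 1) * (θ * (c 2 / t 1))
        + (1 - t 2) * (θ * (c 3 / t 2)) = c 0 := by
      have : (1 - t 0) * (θ * (c 1 / t 0)) + (1 - t 1) * (θ * (c 2 / t 1))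
          + (1 - t 2) * (θ * (c 3 / t 2)) = θ * δ := by
        rw [hδ, hc0]
        field_simp
        ring
      rw [this, hθδ]
    have a1 : (1 - θ) * c 1 + t 0 * (θ * (c 1 / t 0)) = c 1 := by
      field_simp
      ring
    have a2 : (1 - θ) * c 2 + t 1 * (θ * (c 2 / t 1)) = c 2 := by
      field_simp
      ring
    have a3 : (1 - θ) * c 3 + t 2 * (θ * (c 3 / t 2)) = c 3 := by
      field_simp
      ring
    refine ⟨![(1 - θ) * c 1, (1 - θ) * c 2, (1 - θ) * c 3, θ * (c 1 / t 0), θ * (c 2 / t 1),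
      θ * (c 3 / t 2)], ?_, ?_⟩
    · rw [forall_fin6]
      exact ⟨n0, n1, n2, n3, n4, n5⟩
    · rw [truncB_mulVec]
      exact vec4_ext a0 a1 a2 a3

lemma mem_corner_iff (v : Fin 4 → Fin 3 → ℝ) (hW : (liftMat v).det ≠ 0) (t : Fin 3 → ℝ)
    (ht : ∀ i, 0 < t i ∧ t i ≤ 1) (x : Fin 3 → ℝ) :
    x ∈ convexHull ℝ (Set.range (cornerPts v t)) ↔
      (∀ k, 0 ≤ bary v x k) ∧ bary v x 1 / t 0 + bary v x 2 / t 1 + bary v x 3 / t 2 ≤ 1 := by
  rw [mem_hull_iff_bary v hW _ _ (liftMat_cornerPts v t)]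
  exact exists_truncT t ht _ (bary_sum v hW x)

lemma mem_trunc_iff (v : Fin 4 → Fin 3 → ℝ) (hW : (liftMat v).det ≠ 0) (t : Fin 3 → ℝ)
    (ht : ∀ i, 0 < t i ∧ t i ≤ 1) (x : Fin 3 → ℝ) :
    x ∈ convexHull ℝ (Set.range (truncPts v t)) ↔
      (∀ k, 0 ≤ bary v x k) ∧ 1 ≤ bary v x 1 / t 0 + bary v x 2 / t 1 + bary v x 3 / t 2 := by
  rw [mem_hull_iff_bary v hW _ _ (liftMat_truncPts v t)]
  exact exists_truncB t ht _ (bary_sum v hW x)

end Vale.Agent.H68
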