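import Mathlib
import Vale.Agent.H68.TruncGeom
import Vale.Agent.H68.CovPSD
import Vale.Agent.H68.IsoMain

open MeasureTheory Set

namespace Vale.Agent.H68

lemma bary_vertex_zero (v : Fin 4 → Fin 3 → ℝ) (hW : (liftMat v).det ≠ 0) :
    bary v (v 0) = Pi.single 0 1 := by
  symm
  rw [← eq_bary v hW]
  funext a
  simp [Matrix.mulVec, dotProduct, Pi.single_apply, liftMat]

/-- the truncated tetrahedron and the cut-off corner overlap in a null set -/
lemma trunc_inter_null (v : Fin 4 → Fin 3 → ℝ) (hW : (liftMat v).det ≠ 0) (t : Fin 3 → ℝ)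
    (ht : ∀ i, 0 < t i ∧ t i ≤ 1) :
    volume (convexHull ℝ (Set.range (truncPts v t)) ∩ convexHull ℝ (Set.range (cornerPts v t)))
      = 0 := by
  obtain ⟨A, hA⟩ : ∃ A : Matrix (Fin 4) (Fin 4) ℝ, A = (liftMat v)⁻¹ := ⟨_, rfl⟩
  let α : Fin 4 → ℝ := fun a =>
    A 1 a / t 0 + A 2 a / t 1 + A 3 a / t 2 - (if a = 0 then 1 else 0)
  have hα : ∀ x : Fin 3 → ℝ,
      α ⬝ᵥ lift x = bary v x 1 / t 0 + bary v x 2 / t 1 + bary v x 3 / t 2 - 1 := by
    intro x
    simp only [dotProduct, Fin.sum_univ_four, bary, Matrix.mulVec, α, ← hA]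
    simp
    ring
  refine measure_mono_null ?_ (null_hyperplane α ⟨v 0, ?_⟩)
  · rintro x ⟨hx1, hx2⟩
    have h1 := ((mem_trunc_iff v hW t ht x).mp hx1).2
    have h2 := ((mem_corner_iff v hW t ht x).mp hx2).2
    show α ⬝ᵥ lift x = 0
    rw [hα]
    linarith
  · rw [hα, bary_vertex_zero v hW]
    simp

/-- the tetrahedron is the union of the truncated tetrahedron and the cut-off corner -/
lemma simplex_eq_union (v : Fin 4 → Fin 3 → ℝ) (hW : (liftMat v).det ≠ 0) (t : Fin 3 → ℝ)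
    (ht : ∀ i, 0 < t i ∧ t i ≤ 1) :
    convexHull ℝ (Set.range v)
      = convexHull ℝ (Set.range (truncPts v t)) ∪ convexHull ℝ (Set.range (cornerPts v t)) := by
  ext x
  rw [Set.mem_union, mem_simplex_iff_bary v hW, mem_trunc_iff v hW t ht,
    mem_corner_iff v hW t ht]
  constructor
  · intro h
    rcases le_total 1 (bary v x 1 / t 0 + bary v x 2 / t 1 + bary v x 3 / t 2) with h' | h'
    · exact Or.inl ⟨h, h'⟩
    · exact Or.inr ⟨h, h'⟩
  · rintro (h | h) <;> exact h.1

lemma momentMatrix_trunc_add (v : Fin 4 → Fin 3 → ℝ) (hW : (liftMat v).det ≠ 0) (t : Fin 3 → ℝ)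
    (ht : ∀ i, 0 < t i ∧ t i ≤ 1) (a b : Fin 4) :
    momentMatrix (convexHull ℝ (Set.range v)) a b
      = momentMatrix (convexHull ℝ (Set.range (truncPts v t))) a b
        + momentMatrix (convexHull ℝ (Set.range (cornerPts v t))) a b := by
  simp only [momentMatrix, Matrix.of_apply]
  rw [simplex_eq_union v hW t ht]
  exact setIntegral_union₀ (trunc_inter_null v hW t ht)
    (measurableSet_convexHull_range _).nullMeasurableSet (integrableOn_lift_mul _ a b)
    (integrableOn_lift_mul _ a b)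

end Vale.Agent.H68
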