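import Mathlib
import Vale.Agent.H68.TruncMoment

open MeasureTheory Set

namespace Vale.Agent.H68

lemma truncN_sum (t : Fin 3 → ℝ) (W : Matrix (Fin 4) (Fin 4) ℝ) (hW0 : ∀ k, W 0 k = 1) :
    (W * truncN t * W.transpose) 0 0 = 20 * (1 - t 0 * t 1 * t 2) := by
  simp only [Matrix.mul_apply, Matrix.transpose_apply, Fin.sum_univ_four, hW0]
  simp [truncN]
  ring

/-- the normalised moment matrix of the truncated tetrahedron -/
lemma momentMatrix_trunc_eq (v : Fin 4 → Fin 3 → ℝ) (hW : (liftMat v).det ≠ 0) (t : Fin 3 → ℝ)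
    (ht : ∀ i, 0 < t i ∧ t i < 1) :
    momentMatrix (convexHull ℝ (Set.range (truncPts v t)))
      = (|(liftMat v).det| * (1 - t 0 * t 1 * t 2) / 120) •
        ((1 - t 0 * t 1 * t 2)⁻¹ • (liftMat v * truncN t * (liftMat v).transpose)) := by
  have ht' : ∀ i, 0 < t i ∧ t i ≤ 1 := fun i => ⟨(ht i).1, (ht i).2.le⟩
  obtain ⟨h0, h0'⟩ := ht 0
  obtain ⟨h1, h1'⟩ := ht 1
  obtain ⟨h2, h2'⟩ := ht 2
  have hp : 0 < t 0 * t 1 * t 2 := by positivity
  have hp1 : t 0 * t 1 * t 2 < 1 := by
    have : t 0 * t 1 < 1 := by nlinarith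
    nlinarith
  have hq : (1 - t 0 * t 1 * t 2) ≠ 0 := by linarith
  have hW' : (liftMat (cornerPts v t)).det ≠ 0 := by
    rw [liftMat_cornerPts, Matrix.det_mul, det_truncT]
    exact mul_ne_zero hW hp.ne'
  have hdet' : |(liftMat (cornerPts v t)).det| = |(liftMat v).det| * (t 0 * t 1 * t 2) := by
    rw [liftMat_cornerPts, Matrix.det_mul, det_truncT, abs_mul, abs_of_pos hp]
  have hfac : ((3 + 2).factorial : ℝ) = 120 := by norm_num [Nat.factorial]
  ext a b
  have hadd := momentMatrix_trunc_add v hW t ht' a b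
  have hS : momentMatrix (convexHull ℝ (Set.range v)) a b
      = |(liftMat v).det| / 120 *
        (liftMat v * ((1 : Matrix (Fin 4) (Fin 4) ℝ) + colOne 4 * rowOne 4)
          * (liftMat v).transpose) a b := by
    rw [simplex_R_apply, ← hfac]
    exact simplex_moment v hW a b
  have hC : momentMatrix (convexHull ℝ (Set.range (cornerPts v t))) a b
      = |(liftMat v).det| * (t 0 * t 1 * t 2) / 120 *
        (liftMat v * (truncT t * ((1 : Matrix (Fin 4) (Fin 4) ℝ) + colOne 4 * rowOne 4)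
          * (truncT t).transpose) * (liftMat v).transpose) a b := by
    have e : liftMat v * (truncT t * ((1 : Matrix (Fin 4) (Fin 4) ℝ) + colOne 4 * rowOne 4)
          * (truncT t).transpose) * (liftMat v).transpose
        = liftMat (cornerPts v t) * ((1 : Matrix (Fin 4) (Fin 4) ℝ) + colOne 4 * rowOne 4)
          * (liftMat (cornerPts v t)).transpose := by
      rw [liftMat_cornerPts, Matrix.transpose_mul]
      simp only [Matrix.mul_assoc]
    rw [e, simplex_R_apply, ← hdet', ← hfac]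
    exact simplex_moment (cornerPts v t) hW' a b
  have hN : (liftMat v * truncN t * (liftMat v).transpose) a b
      = (liftMat v * ((1 : Matrix (Fin 4) (Fin 4) ℝ) + colOne 4 * rowOne 4)
          * (liftMat v).transpose) a b
        - (t 0 * t 1 * t 2) *
          (liftMat v * (truncT t * ((1 : Matrix (Fin 4) (Fin 4) ℝ) + colOne 4 * rowOne 4)
          * (truncT t).transpose) * (liftMat v).transpose) a b := by
    rw [← truncN_eq, Matrix.mul_sub, Matrix.sub_mul, Matrix.mul_smul, Matrix.smul_mul,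
      Matrix.sub_apply, Matrix.smul_apply, smul_eq_mul]
  rw [Matrix.smul_apply, Matrix.smul_apply, smul_eq_mul, smul_eq_mul, hN]
  have hK : momentMatrix (convexHull ℝ (Set.range (truncPts v t))) a b
      = momentMatrix (convexHull ℝ (Set.range v)) a b
        - momentMatrix (convexHull ℝ (Set.range (cornerPts v t))) a b := by linarith
  rw [hK, hS, hC]
  field_simp

/-- the isotropic ratio of the truncated tetrahedron -/
theorem isoRatio_trunc (v : Fin 4 → Fin 3 → ℝ) (hW : (liftMat v).det ≠ 0) (t : Fin 3 → ℝ)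
    (ht : ∀ i, 0 < t i ∧ t i < 1) :
    (covMatrix (convexHull ℝ (Set.range (truncPts v t)))).det
        / (vol (convexHull ℝ (Set.range (truncPts v t)))) ^ 2
      = cn 3 * (truncF (t 0) (t 1) (t 2) / (1 - t 0 * t 1 * t 2) ^ 6) := by
  obtain ⟨h0, h0'⟩ := ht 0
  obtain ⟨h1, h1'⟩ := ht 1
  obtain ⟨h2, h2'⟩ := ht 2
  have hp : 0 < t 0 * t 1 * t 2 := by positivity
  have hp1 : t 0 * t 1 * t 2 < 1 := by
    have : t 0 * t 1 < 1 := by nlinarith
    nlinarith
  have hq : 0 < 1 - t 0 * t 1 * t 2 := by linarith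
  have habs : 0 < |(liftMat v).det| := abs_pos.mpr hW
  have hR00 : ((1 - t 0 * t 1 * t 2)⁻¹ • (liftMat v * truncN t * (liftMat v).transpose)) 0 0
      = (((3 : ℕ) : ℝ) + 1) * (((3 : ℕ) : ℝ) + 2) := by
    rw [Matrix.smul_apply, smul_eq_mul, truncN_sum t _ (fun k => liftMat_zero v k)]
    push_cast
    field_simp
    ring
  rw [isoRatio_general (truncPts v t) _ (by positivity) _ (momentMatrix_trunc_eq v hW t ht) hR00,
    Matrix.det_smul, Matrix.det_mul, Matrix.det_mul, Matrix.det_transpose, det_truncN,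
    Fintype.card_fin]
  unfold cn
  have habs2 : |(liftMat v).det| ^ 2 = (liftMat v).det ^ 2 := sq_abs _
  have hfac : ((3 + 2).factorial : ℝ) = 120 := by norm_num [Nat.factorial]
  rw [hfac]
  obtain ⟨d, hd⟩ : ∃ d : ℝ, d = |(liftMat v).det| := ⟨_, rfl⟩
  rw [← hd] at habs habs2 ⊢
  have hDD : (liftMat v).det * (5 * truncF (t 0) (t 1) (t 2)) * (liftMat v).det
      = 5 * truncF (t 0) (t 1) (t 2) * d ^ 2 := by
    rw [habs2]
    ring
  rw [hDD]
  push_cast
  field_simp
  ring

/-- **Corner-truncated tetrahedra have strictly smaller isotropic constant than the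
tetrahedron.** -/
theorem trunc_main (v : Fin 4 → Fin 3 → ℝ) (hv : AffineIndependent ℝ v) (t : Fin 3 → ℝ)
    (ht : ∀ i, 0 < t i ∧ t i < 1) :
    isoConst (convexHull ℝ (Set.range (truncPts v t))) < isoConst (convexHull ℝ (Set.range v)) := by
  have hW := det_ne_zero_of_affineIndependent v hv
  obtain ⟨h0, h0'⟩ := ht 0
  obtain ⟨h1, h1'⟩ := ht 1
  obtain ⟨h2, h2'⟩ := ht 2
  have hp : 0 < t 0 * t 1 * t 2 := by positivity
  have hp1 : t 0 * t 1 * t 2 < 1 := by
    have : t 0 * t 1 < 1 := by nlinarith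
    nlinarith
  have hq : 0 < 1 - t 0 * t 1 * t 2 := by linarith
  have hK := isoRatio_trunc v hW t ht
  have hS : (covMatrix (convexHull ℝ (Set.range v))).det / (vol (convexHull ℝ (Set.range v))) ^ 2
      = cn 3 := isoRatio_simplex v hW
  have hF := truncF_lt (t 0) (t 1) (t 2) h0 h1 h2 h0' h1' h2'
  have hc := cn_pos 3
  have hlt : cn 3 * (truncF (t 0) (t 1) (t 2) / (1 - t 0 * t 1 * t 2) ^ 6) < cn 3 := by
    have h6 : 0 < (1 - t 0 * t 1 * t 2) ^ 6 := by positivity
    have : truncF (t 0) (t 1) (t 2) / (1 - t 0 * t 1 * t 2) ^ 6 < 1 := by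
      rw [div_lt_one h6]
      exact hF
    nlinarith
  have hnn : 0 ≤ (covMatrix (convexHull ℝ (Set.range (truncPts v t)))).det
      / (vol (convexHull ℝ (Set.range (truncPts v t)))) ^ 2 :=
    div_nonneg (covMatrix_det_nonneg _) (sq_nonneg _)
  have he : (0:ℝ) < 1 / (2 * ((3 : ℕ) : ℝ)) := by norm_num
  unfold isoConst
  rw [hS]
  rw [hK] at hnn ⊢
  exact Real.rpow_lt_rpow hnn hlt he

end Vale.Agent.H68
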